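import Vale.Agent.P283R.Dc.Stc69

/-!
# P283R, block DC: nested towers and their quotients over a class
-/

open CategoryTheory AlgebraicGeometry

noncomputable section

namespace Vale.Agent.P283R

namespace Sl

open Var Vale.Agent.P287D

variable {C : ∀ (d : ℕ) (X Z : Var), (X.X ⟶ Z.X) → X.Form d → X.QDiv → Pt Z.X → Prop}

theorem Steps.stages {J : ℕ} {X Y : Var} {g : X.X ⟶ Y.X} (h : Steps J g) : Stages J g := by
  induction h with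
  | one a b => exact .one a b
  | comp _ _ a b => exact .comp a b
  | small p a b c _ i => exact .small p a b c i
  | etale b a c e f k l _ i => exact .cover b a e (.inl ⟨c, f⟩) k l i

theorem Stages.ctr {J : ℕ} {X Y : Var} {g : X.X ⟶ Y.X} (c : Stages J g) :
    Contraction g := (Dn.stc J X Y g c).1

theorem Stages.gn {J d e : ℕ} {X Y W : Var} {g : X.X ⟶ Y.X} {h : Y.X ⟶ W.X}
    {ω : X.Form d} (c : Stages J g) (s : Surjective h) (hd : dimension X.str = d)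
    (he : dimension Y.str = e) (e1 : 1 ≤ e) (b : ω.Nonzero) (ft : FanoType (g ≫ h) ω) :
    ∃ (p : Y.K →+* X.K) (r : ℕ), Et.Pe (W := X.o) (Z := Y.o) g p ∧ d = e + r ∧
      (letI := p.toAlgebra; Dn.Gn J r e r Y.K X.K (Cf.Pri X.o)) := by
  have := c.ctr.2.2.1
  obtain ⟨p, hp⟩ := Cf.Fto.exists_pe (X := X.o) (Y := Y.o) g
  obtain ⟨r, u, v⟩ := (Dn.stc J X Y g c).2.2 W h d e ω p s hd he e1 b ft hp
  exact ⟨p, r, hp, u, v⟩

/-- nested towers over a class -/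
theorem OnN.stage' (J : ℕ → ℕ) (h : OnN C) :
    OnN fun d X Z f ω B z => ∃ (e : ℕ) (T : Var) (a : X.X ⟶ T.X) (h : T.X ⟶ Z.X) (θ : T.Form e),
      dimension T.str = e ∧ 1 ≤ e ∧ θ.Nonzero ∧ a ≫ h = f ∧ Stages (J d) a ∧
      TrivialOver a ω B ∧ ∀ Δ, C e T Z h θ Δ z := by
  intro d hd ε hε R hR
  obtain ⟨n, hn, K⟩ := on_nest (Dn.dwn_of Dn.tgn) J h d hd ε hε R hR
  refine ⟨n, hn, fun X Z f ω B z a b c i s t u => K X Z f ω B z a b c i s t ?_⟩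
  obtain ⟨ft, v, e, Y, g, k, η, b2, b1, b3, rfl, b5, b7, b8⟩ := u
  have b6 := b5.ctr.of_comp s
  obtain ⟨p, r, hp, rfl, T⟩ := b5.gn b6.2.2.1 a b2 b1 b ft
  exact ⟨e, r, Y, g, k, η, p, b1, b2, b3, rfl, b5.ctr, b6, hp, rfl, T, b7, fun Δ c7 c8 =>
    ⟨(fanoType_iff k η).2 (Dn.ftd_of Dn.tgn (X := X.o) (Y := Y.o) (Z := Z.o) (h := k) b5.ctr
      hp b6.2.2.1 b1 a b b3 T ((fanoType_iff _ ω).1 ft)), (nefOver_iff k _).2 (Cf.nef X.o Y.o g p b5.ctr hp Z.o k _ _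
        (Eb.logCan_fin (X := Y.o) b1 b2 b3 Δ) (fun y => c7.2.1 y trivial) c8
        ((nefOver_iff _ _).1 v)), b8 Δ⟩⟩

/-- the same for classes which do not depend on the boundary -/
theorem OnN.stage (J : ℕ → ℕ)
    {C : ∀ (d : ℕ) (X Z : Var), (X.X ⟶ Z.X) → X.Form d → Pt Z.X → Prop}
    (h : OnN fun d X Z f ω _ z => C d X Z f ω z) :
    OnN fun d X Z f ω B z => ∃ (e : ℕ) (T : Var) (a : X.X ⟶ T.X) (h : T.X ⟶ Z.X) (θ : T.Form e),
      dimension T.str = e ∧ 1 ≤ e ∧ θ.Nonzero ∧ a ≫ h = f ∧ Stages (J d) a ∧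
      TrivialOver a ω B ∧ C e T Z h θ z :=
  (h.stage' J).mono fun _ _ _ _ _ _ _ ⟨e, Y, g, h, η, b1, b2, b3, b4, b5, b6, u⟩ =>
    ⟨e, Y, g, h, η, b1, b2, b3, b4, b5, b6, fun _ => u⟩

/-- nested towers over a germ -/
theorem onN_stage (J : ℕ → ℕ) {S : ℕ → ∀ Z : Var, Pt Z.X → Prop}
    (h : On fun d _ Z f ω B z => Crepant f ω B z ∧ S d Z z) : OnN fun d _ Z f ω B z =>
    ∃ e : ℕ, dimension Z.str = e ∧ 1 ≤ e ∧ Stages (J d) f ∧ TrivialOver f ω B ∧ S e Z z := by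
  intro d hd ε hε R hR
  obtain ⟨n, hn, K⟩ := on_nest (Dn.dwn_of Dn.tgn) J h d hd ε hε R hR
  refine ⟨n, hn, fun X Z f ω B z a b c i s t ⟨ft, _, e, b1, b2, b3, b4, b5⟩ =>
    K X Z f ω B z a b c i s t ?_⟩
  obtain ⟨p, r, hp, rfl, T⟩ := b3.gn (h := 𝟙 _) inferInstance a b1 b2 b
    ((Category.comp_id f).symm ▸ ft)
  obtain ⟨m, η, h1, h2⟩ := exists_form Z
  obtain rfl : e = m := Nat.cast_injective (b1.symm.trans h1)
  exact ⟨e, r, Z, f, 𝟙 _, η, p, b2, b1, h2, Category.comp_id _, s, Br.ctr_id (X := Z.o), hp, rfl, T,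
    b4, fun Δ l _ =>
      ⟨⟨⟨_, Br.pb_id (X := Z.o)⟩, Br.loc_id (X := Z.o) ((pair_iff _ _ η Δ).1 l) z⟩, b5⟩⟩

/-- nested towers over quotients of complete intersections and over mild points -/
theorem onN_germC69 (J : ℕ → ℕ) : OnN fun d _ Z f ω B z =>
    ∃ e : ℕ, dimension Z.str = e ∧ 1 ≤ e ∧ Stages (J d) f ∧ TrivialOver f ω B ∧
      (LciqOr (e = d ∧ SameCoeff f B.coeff 0) Z z ∨ 3 ≤ e ∧ MildCover e (e - 3) Z z) :=
  ((onN_stage J (S := fun e W w => LciqReg W w ∨ 3 ≤ e ∧ MildCover e (e - 3) W w)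
    ((Pu.on.or on_cdv).mono fun _ _ _ _ _ _ _ u =>
      u.2.imp (fun v => ⟨u.1, v⟩) fun v => ⟨v.1, u.1, v.2⟩)).or onN_lci0).mono
    fun _ _ _ _ _ _ _ ⟨e, a, b, c, t, u⟩ => by
      rcases u with u | u
      · rcases u.elim with v | ⟨⟨rfl, v⟩, w⟩
        · exact .inl ⟨e, a, b, c, t, .inl v⟩
        · exact .inr ⟨a, t, v, w⟩
      · exact .inl ⟨e, a, b, c, t, .inr u⟩

/-- the union of the two, after an étale base change -/
theorem literalC69 (J : ℕ → ℕ)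
    {C : ∀ (d : ℕ) (X Z : Var), (X.X ⟶ Z.X) → X.Form d → Pt Z.X → Prop}
    (h : OnN fun d X Z f ω _ z => C d X Z f ω z) :
    ∀ d : ℕ, 1 ≤ d → ∀ ε : ℝ, 0 < ε → ∀ R : Finset ℚ, (∀ r ∈ R, 0 ≤ r ∧ r ≤ 1) →
    ∃ n : ℕ, 1 ≤ n ∧ ∀ (X Z : Var) (f : X.X ⟶ Z.X) (ω : X.Form d) (B : X.QDiv)
      (z : Pt Z.X), dimension X.str = d → ω.Nonzero → Pair (ε ≤ ·) (all X.X) ω B →
      (∀ y, B.coeff y ≠ 0 → B.coeff y ∈ R) → Contraction f → FanoType f ω →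
      NefOver f (-logCan ω B) → z.Closed →
      EtLocal (fun Y W g (η : Y.Form d) D w =>
        (∃ (e : ℕ) (T : Var) (a : Y.X ⟶ T.X) (h : T.X ⟶ W.X) (θ : T.Form e),
          dimension T.str = e ∧ 1 ≤ e ∧ θ.Nonzero ∧ a ≫ h = g ∧ Stages (J d) a ∧
          TrivialOver a η D ∧ C e T W h θ w) ∨
        ∃ e : ℕ, dimension W.str = e ∧ 1 ≤ e ∧ Stages (J d) g ∧ TrivialOver g η D ∧
          (LciqOr (e = d ∧ SameCoeff g D.coeff 0) W w ∨ 3 ≤ e ∧ MildCover e (e - 3) W w)) f B z →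
      HasKltComplement f ω B n z := fun d hd ε hε R hR =>
  (((h.stage J).or (onN_germC69 J)).et d hd ε hε R hR).imp
    fun _ H => ⟨H.1, fun X Z f ω B z a b c e s u v t w => H.2 X Z f ω B z a b c e s t ⟨u, v, w⟩⟩

end Sl

end Vale.Agent.P283R
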