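import Vale.Agent.P283R.Dn.All
import Vale.Agent.P283R.Uq.Fan48
import Vale.Agent.P283R.Tq.Cmp48
import Vale.Agent.P283R.Sl.Dc

/-!
# P283R, block DC: the normal form of a morphism, with finite quotients
-/

open Set CategoryTheory AlgebraicGeometry

noncomputable section

namespace Vale.Agent.P283R.Dn

open Vale.Agent.P287D
open Cf (Tow Go Acl ForE ForC Pri Triv Pull dn)

section

open Vale.Agent.P289 (Pt DForm dimension)
open Vale.Agent.P283M Vale.Agent.P283M.Stm Vale.Agent.P283M.Stm.Var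
open Vale.Agent.P283R.Et (Pe)
open Vale.Agent.P283M.Br (ffd plc pl_of)
open Vale.Agent.P297Z

/-- a finite dominant morphism gives a finite extension of the function fields -/
theorem fin69 {X Y : Var} {u : Y.X ⟶ X.X} [IsFinite u] {q : X.K →+* Y.K} (hq : Pe u q)
    (y : Pt Y.X) : letI := q.toAlgebra; FiniteDimensional X.K Y.K := by
  let O := X.X.presheaf.stalk (u y)
  let _ := q.toAlgebra
  let O' := Y.X.presheaf.stalk y
  let _ : Algebra O O' := (u.stalkMap y).hom.toAlgebra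
  let _ : Algebra O Y.K := ((algebraMap O' Y.K).comp (u.stalkMap y).hom).toAlgebra
  have : IsScalarTower O X.K Y.K := .of_algebraMap_eq fun a => (hq y a).symm
  have : IsScalarTower O O' Y.K := .of_algebraMap_eq fun _ => rfl
  have : Algebra.QuasiFinite O O' := u.quasiFiniteAt y
  have := Algebra.QuasiFinite.trans O O' Y.K
  have := Algebra.QuasiFinite.of_restrictScalars O X.K Y.K
  exact .of_quasiFinite

theorem dim69 {X Y : Var} {u : Y.X ⟶ X.X} [IsFinite u] {q : X.K →+* Y.K}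
    (ov : u ≫ X.str = Y.str) (hq : Pe u q) {e : ℕ} (he : dimension X.str = e) :
    dimension Y.str = e := by
  let _ := q.toAlgebra
  have : IsScalarTower ℂ X.K Y.K := .of_algebraMap_eq fun c => (hq.cst ov c).symm
  have := fin69 hq (genericPoint _)
  exact (Hd.ff_up (K := Y.K) (ffd X e he)).trdeg

variable {X Y X' Y' : Var} {g : X.X ⟶ Y.X} {p : Y.K →+* X.K} {J e r : ℕ}

theorem cov69 (sqg : SQG) {g' : X'.X ⟶ Y'.X} {π : X'.X ⟶ X.X} {u : Y'.X ⟶ Y.X} [IsFinite u]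
    {ι : X.K →+* X'.K} {p' : Y'.K →+* X'.K} {q : Y.K →+* Y'.K} {j k : ℕ} (B : Bc.Qp j π ι)
    (cg : Contraction g) (c : Contraction g') (ov : u ≫ Y.str = Y'.str) (w : g' ≫ u = π ≫ g)
    (hp : Pe g p) (hp' : Pe g' p') (hq : Pe u q) (le : j * k ≤ J)
    (hd : dimension X.str = (e + r : ℕ)) (he : dimension Y.str = e)
    (t : letI := p'.toAlgebra; Gn k r e r Y'.K X'.K (Pri X')) :
    letI := p.toAlgebra; Gn J r e r Y.K X.K (Pri X) := by
  have sq : ι.comp p = p'.comp q := Dp.pe_uniq88 (Ft.G58.pe_comp B.pe hp)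
    (w ▸ Ft.G58.pe_comp hp' hq)
  let _ := p.toAlgebra
  let _ := p'.toAlgebra
  let _ := q.toAlgebra
  let _ := ι.toAlgebra
  have : IsScalarTower ℂ Y.K X.K := .of_algebraMap_eq fun c => (hp.cst cg.1 c).symm
  have : IsScalarTower ℂ Y.K Y'.K := .of_algebraMap_eq fun c => (hq.cst ov c).symm
  have : IsScalarTower ℂ X.K X'.K := B.tower
  have : IsScalarTower ℂ Y'.K X'.K := .of_algebraMap_eq fun x => (hp'.cst c.1 x).symm
  have ac := Cf.Fto.acl cg hp
  have f1 := fin69 hq (genericPoint _)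
  obtain ⟨f2, r2⟩ := B.rank
  have s1 : ∀ a : Y.K, algebraMap Y'.K X'.K (algebraMap Y.K Y'.K a) =
      algebraMap X.K X'.K (algebraMap Y.K X.K a) := fun a => (DFunLike.congr_fun sq a).symm
  have : CharZero Y.K := charZero_of_injective_algebraMap (algebraMap ℂ Y.K).injective
  refine sqg Y.K X.K Y'.K X'.K (Pri X) (Pri X') j k J r e r (ffd Y e he) (ffd X _ hd) ac
    ⟨s1, f1, f2, (Dp.rk61 Y.K X.K Y'.K X'.K s1 ac).trans r2, r2, fun P' ⟨E, hE⟩ => ?_⟩ le t
  obtain ⟨Q, i, o⟩ := pl_of plc E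
  obtain rfl := Br.pl_eq i hE
  obtain ⟨y, -, y2⟩ := B.div E
  obtain ⟨P, a, o'⟩ := pl_of plc y
  have oo : ∀ a, Q.ord (ι a) = P.ord a := fun a => by rw [← o, ← o', y2]
  refine ⟨P, ⟨y, a.dom⟩, fun a => ?_, (oo _).trans P.ord_t⟩
  rcases eq_or_ne a 0 with rfl | a0
  · simp
  · rw [← Pl.ord_nonneg_iff _ a0, ← Pl.ord_nonneg_iff _ ((map_ne_zero _).2 a0)]
    exact (oo a).symm ▸ Iff.rfl

end

open Sl Sl.Var in
/-- the normal form of a morphism -/
def STC : Prop := ∀ (J : ℕ) (X Y : Sl.Var) (g : X.X ⟶ Y.X), Stages J g → Contraction g ∧ 1 ≤ J ∧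
  ∀ (W : Sl.Var) (h : Y.X ⟶ W.X) (d e : ℕ) (ω : X.Form d) (p : Y.K →+* X.K), Surjective h →
    dimension X.str = d → dimension Y.str = e → 1 ≤ e → ω.Nonzero → FanoType (g ≫ h) ω →
    Et.Pe (W := X.o) (Z := Y.o) g p → ∃ r : ℕ, d = e + r ∧
      (letI := p.toAlgebra; Gn J r e r Y.K X.K (Pri X.o))

open Sl Sl.Var P283M.Br in
/-- the normal form of a morphism -/
theorem stg69 (rel : Dp.REL) (tgn : TGN) (sqg : SQG) (cmp : CMP) (frs : FRS) (sms : SMS) :
    STC := by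
  intro J X Y g c
  induction c with
  | @one J X Y g a i =>
    refine ⟨a, by omega, fun W h d e ω p _ hd he _ b ft hp => ?_⟩
    rw [hd, he] at i
    obtain ⟨p', hp', t⟩ := tower_le a hd he (by exact_mod_cast i) b ft
    obtain rfl : p = p' := Dp.pe_uniq88 (W := X.o) (Z := Y.o) hp hp'
    obtain ⟨r, rfl, T⟩ := Cf.adp' g a.1 p hp hd he t
    exact ⟨r, rfl, one96 (X := X.o) (Y := Y.o) a hp (by omega) hd he T⟩
  | @comp J X Y T g k _ _ i i' =>
    obtain ⟨c, J1, i⟩ := i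
    obtain ⟨c', -, i'⟩ := i'
    refine ⟨c.comp c', J1, fun W h d e ω p s hd he e1 b ft hp => ?_⟩
    obtain ⟨m, η, hm, η0⟩ := exists_form Y
    have m1 := e1.trans (c'.dim_le hm he)
    have := c'.2.2.1
    have := c.2.2.1
    rw [Category.assoc] at ft
    obtain ⟨p₁, h₁⟩ := Cf.Fto.exists_pe (X := X.o) (Y := Y.o) g
    obtain ⟨p₂, h₂⟩ := Cf.Fto.exists_pe (X := Y.o) (Y := T.o) k
    have s' : Surjective (k ≫ h) := inferInstance
    obtain ⟨r₁, rfl, t⟩ := i W (k ≫ h) d m ω p₁ s' hd hm m1 b ft h₁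
    obtain ⟨r₂, rfl, t'⟩ := i' W h m e η p₂ s hm he e1 η0 ((fanoType_iff _ η).2
      (ftd_of tgn (X := X.o) (Y := Y.o) (Z := W.o) (h := k ≫ h) c h₁ s' m1 hd b η0 t
        ((fanoType_iff _ ω).1 ft))) h₂
    exact ⟨r₂ + r₁, add_assoc _ _ _, cmp96 (X := X.o) (Y := Y.o) (T := T.o) (g := g) (k := k) cmp
      c c' (c.comp c') h₁ h₂ hp J1 hd hm he t t'⟩
  | @small J X' X Y π g ι a hι sm _ i =>
    obtain ⟨c, J1, i⟩ := i
    have cg := a.of_comp c
    refine ⟨cg, J1, fun W h d e ω p s hd he e1 b ft hp => ?_⟩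
    obtain ⟨m, η, hm, η0⟩ := exists_form X'
    obtain rfl : d = m := Nat.cast_injective (hd.symm.trans ((dim_pull a hι).trans hm))
    have := c.2.2.1
    obtain ⟨p', h'⟩ := Cf.Fto.exists_pe (X := X'.o) (Y := Y.o) (π ≫ g)
    obtain ⟨r, rfl, t⟩ := i W h d e η p' s hm he e1 η0 (by
      have := cg.2.2.1
      rw [Category.assoc]
      exact (fanoType_iff _ η).2 (Ft.fta X'.o X.o W.o π (g ≫ h) ι d ω η a.1 hι sm inferInstance
        (e1.trans (cg.dim_le hd he)) hd hm b η0 ((fanoType_iff _ ω).1 ft))) h'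
    exact ⟨r, rfl, sml96 (X := X.o) (Y := Y.o) (X' := X'.o) (g := g) (π := π) (ι := ι) sqg sms a.1
      cg c hι hp h' sm hd he t⟩
  | @cover J j k X' Y' X Y g' π u g β cg ov alt sp le _ i =>
    obtain ⟨c, k1, i⟩ := i
    have j1 : 1 ≤ j := Nat.pos_of_ne_zero fun z => by
      subst z
      obtain ⟨_, _, e⟩ := sp 1
      simp at e
    refine ⟨cg, (Nat.mul_le_mul j1 k1).trans le, fun W h d e ω p s hd he e1 b ft hp => ?_⟩
    have d1 := e1.trans (cg.dim_le hd he)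
    have := c.2.2.1
    obtain ⟨p', hp'⟩ := Cf.Fto.exists_pe (X := X'.o) (Y := Y'.o) g'
    have f0 := rel X.o Y.o W.o g h d ω cg.2.2.1 s d1 hd b ((fanoType_iff _ ω).1 ft)
    have spn : ∀ ι : X.K →+* X'.K, Et.Pe (W := X'.o) (Z := X.o) π ι → Spanned j ι := fun ι hι =>
      ⟨β, fun a => let ⟨y, c, z⟩ := sp a
        ⟨fun i => toRat (c i), z.trans (Finset.sum_congr rfl fun i _ =>
          congrArg (· * β i) (hι y (c i)).symm)⟩⟩
    obtain ⟨m, η, hm, η0⟩ := exists_form X'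
    rcases alt with ⟨et, pb⟩ | ⟨fe, fq, sq⟩
    · have : Etale π := MorphismProperty.of_isPullback pb.flip et
      obtain ⟨ι, hι⟩ := Et.exists_pe (W := X'.o) (Z := X.o) π
      have o : π ≫ X.str = X'.str := by
        rw [← cg.1, ← Category.assoc, pb.w, Category.assoc, ov, c.1]
      have B : Eb.Bc (X := X.o) (Z := Y.o) (Y := X'.o) (W := Y'.o) g u g' π ι :=
        ⟨cg, et, ov, pb, this, o, hι⟩
      obtain ⟨q, hq⟩ := Et.exists_pe (W := Y'.o) (Z := Y.o) u
      have hd' : dimension X'.str = d := Eb.dim _ _ _ _ B.ep d hd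
      have he' : dimension Y'.str = e := Eb.dim Y.o Y'.o u q ⟨et, ov, hq⟩ e he
      obtain rfl : d = m := Nat.cast_injective (hd'.symm.trans hm)
      have f1 : FanoType g' η := fan_up B d1 hd b η0 ((fanoType_iff g ω).2 f0)
      obtain ⟨r, rfl, t⟩ := i Y' (𝟙 _) d e η p' inferInstance hd' he' e1 η0
        ((Category.comp_id g').symm ▸ f1) hp'
      exact ⟨r, rfl, eta96 (X := X.o) (Y := Y.o) (X' := X'.o) (Y' := Y'.o) sqg frs B c hp hp'
        (spn ι hι) le hd he t⟩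
    · obtain ⟨h1, h2, h3, ι, G, pe, -, h6⟩ := fq.fin
      have qp : Bc.Qp (X := X.o) (Y := X'.o) j π ι := ⟨h1, h2, h3, pe, spn ι pe, h6⟩
      have := cg.2.2.1
      have su : Surjective u := by
        have : Surjective (g' ≫ u) := sq ▸ inferInstance
        exact .of_comp g' u
      obtain ⟨q, hq⟩ := Cf.Fto.exists_pe (X := Y'.o) (Y := Y.o) u
      have hd' : dimension X'.str = d := qp.dim hd
      have he' : dimension Y'.str = e := dim69 (X := Y.o) (Y := Y'.o) ov hq he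
      obtain rfl : d = m := Nat.cast_injective (hd'.symm.trans hm)
      have f1 : FanoType g' η := (fanoType_iff g' η).2
        (Uq.fan48 (X := X.o) (Y := X'.o) (Z := Y.o) (W := Y'.o) qp sq d1 hd b η0 f0)
      obtain ⟨r, rfl, t⟩ := i Y' (𝟙 _) d e η p' inferInstance hd' he' e1 η0
        ((Category.comp_id g').symm ▸ f1) hp'
      exact ⟨r, rfl, cov69 (X := X.o) (Y := Y.o) (X' := X'.o) (Y' := Y'.o) sqg qp cg c ov sq hp hp'
        hq le hd he t⟩

theorem stc : STC := stg69 Dp.rel90 tgn sqg79 (cmr9 sqg79) frs88 sms19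

end Vale.Agent.P283R.Dn
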